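import Crest.Agent.N250.Tr.Inst

/-!
# Row 250, transformations (helper52): `rot`, `res`, `freeze`, `resc`, `unresc`, `flip`
-/

set_option autoImplicit false
open MeasureTheory Set Filter Topology
open scoped ContDiff InnerProductSpace Pointwise
open Crest.GeometryTopology.MCF

noncomputable section

namespace Crest.Agent.N250.Tr

variable {F G : Mv} {p : ST} {f g : ST → ℝ} {t : ℝ}


/-! ### `rot` -/




section rot

variable (R : E ≃ₗᵢ[ℝ] E)


























end rot

/-! ### `res` -/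

section res

variable {Ω : Set ST} (hΩ : IsOpen Ω)
include hΩ

theorem res_reg (hF : F.Reg) : (F.res Ω).Reg := fun p hp => by
  obtain ⟨W, φ, hW, h⟩ := hF p hp.1
  exact ⟨W ∩ Ω, φ, ⟨hW, hp.2⟩, h.isOpen.inter hΩ, h.sm.mono inter_subset_left,
    fun q hq => h.ne q hq.1, fun q hq => by simp [Mv.res, hq.2, h.mem q hq.1],
    fun q hq hM => h.n_eq q hq.1 hM.1, fun q hq hM => h.V_eq q hq.1 hM.1⟩

theorem res_td {Y : Type} [NormedAddCommGroup Y] [NormedSpace ℝ Y] (f : ST → Y) (hp : p ∈ Ω) :
    (F.res Ω).td f p = F.td f p := fderivWithin_inter (hΩ.mem_nhds hp)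

theorem res_D (f : ST → ℝ) (hp : p ∈ Ω) (a : Fin 3) : (F.res Ω).D a f p = F.D a f p := by
  rw [D_def, D_def, res_td hΩ f hp]; rfl


theorem res_DL (f : ST → ℝ) (l : List (Fin 3)) :
    ∀ p ∈ F.M ∩ Ω, (F.res Ω).DL l f p = F.DL l f p := by
  induction l with
  | nil => exact fun _ _ => rfl
  | cons a l ih =>
    exact fun p hp => (D_congr (F := F.res Ω) hp (ev_of_on ih) a).trans (res_D hΩ _ hp.2 a)

theorem res_A (hp : p ∈ Ω) (a b : Fin 3) : (F.res Ω).A a b p = F.A a b p := res_D hΩ _ hp a

theorem res_H (hp : p ∈ Ω) : (F.res Ω).H p = F.H p := by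
  simp only [Mv.H, Finset.sum_apply, res_A hΩ hp]



theorem res_mcf (hF : F.IsMCF) : (F.res Ω).IsMCF :=
  ⟨res_reg hΩ hF.1, fun p hp => by rw [res_H hΩ hp.2]; exact hF.2 p hp.1⟩


theorem res_mu (t : ℝ) : (F.res Ω).mu t = (F.mu t).restrict {x | (x, t) ∈ Ω} := by
  have hm : MeasurableSet {x : E | (x, t) ∈ Ω} :=
    (hΩ.preimage (f := fun x : E => (x, t)) (by fun_prop)).measurableSet
  rw [Mv.mu, Mv.mu, Measure.restrict_restrict hm, inter_comm]
  rfl

end res

/-! ### `freeze` -/


















/-! ### `resc` -/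





section resc

variable (X : ST)














end resc

/-! ### `unresc` -/





















/-! ### `flip` -/
























end Crest.Agent.N250.Tr

end
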